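import Vale.Agent.Lib.P324.Series

/-!
# P324: additive approximation is as hard as exact optimisation (series self-reduction)

The optimum makespan of unit jobs with precedence constraints on `m` machines is exactly
multiplicative under `k`-fold series composition of the precedence graph.  Consequently any
estimate `A` of the optimum of the `k`-fold series power which is within an additive error
`c < k` determines the exact optimum of the original instance as `A / k` (integer division).
-/

namespace Vale.Agent.Results.P324.SeriesSelfReduction

open Vale.Agent.Lib.P324

/-- **Main result.**  For every finite precedence graph `E` on a job set `V`, every number of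
machines `m` (in particular `m = 3`) and every `k`:
(1) the optimum makespan of the `k`-fold series composition equals `k` times the optimum of `E`;
(2) if `c < k` and a number `A` satisfies `OPT(E^k) ≤ A ≤ OPT(E^k) + c`, then `A / k = OPT(E)`. -/
theorem result : ∀ (V : Type) [Fintype V] (E : V → V → Prop) (m k : ℕ),
    optMakespan (seriesPow E k) m = k * optMakespan E m ∧
    ∀ c A : ℕ, c < k → optMakespan (seriesPow E k) m ≤ A →
      A ≤ optMakespan (seriesPow E k) m + c → A / k = optMakespan E m := by
  intro V _ E m k
  refine ⟨optMakespan_seriesPow E m k, ?_⟩
  intro c A hck h1 h2
  rw [optMakespan_seriesPow E m k] at h1 h2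
  have hk : 0 < k := by omega
  apply Nat.div_eq_of_lt_le
  · rw [Nat.mul_comm]
    exact h1
  · have : A < k * optMakespan E m + k := by omega
    calc A < k * optMakespan E m + k := this
      _ = (optMakespan E m + 1) * k := by ring

end Vale.Agent.Results.P324.SeriesSelfReduction
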